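import Vale.Agent.P037.Defs
import Vale.Agent.P037.MiniPattern
import Vale.Agent.N037.Few
import Vale.Agent.N037.Tight

open Vale.Agent.P037

/-- Polynomial ordered binary matrix removal holds for hosts with few distinct rows or few distinct
columns, with a bound polynomial in `ε / m`, and the power of the number `m` of distinct lines
cannot be taken below one. -/
theorem Vale.Agent.Results.P037.A0FewRows.result :
    -- (1) polynomial removal for hosts with at most `m` distinct rows or columns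
    (∀ (k : ℕ) (H : Matrix (Fin k) (Fin k) Bool), 1 ≤ k →
      ∀ (n m : ℕ) (ε : ℝ) (A : Matrix (Fin n) (Fin n) Bool), 1 ≤ n → 0 < ε → ε < 1 →
        ε ≤ distFree H A → (Set.range A.row).ncard ≤ m ∨ (Set.range A.col).ncard ≤ m →
          (ε / (4 * k * (m : ℝ) ^ k)) ^ (2 * k) * (n : ℝ) ^ (2 * k) ≤ (numCopies H A : ℝ)) ∧
    -- (2) for `H5` no power of `m` below one works
    ∀ a : ℝ, a < 1 → ¬ ∃ c C : ℝ, 0 < c ∧ 0 < C ∧
      ∀ (n m : ℕ) (ε : ℝ) (A : Matrix (Fin n) (Fin n) Bool), 1 ≤ n → 0 < ε → ε < 1 →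
        ε ≤ distFree H5 A → (Set.range A.row).ncard ≤ m → (Set.range A.col).ncard ≤ m →
          c * ε ^ C / (m : ℝ) ^ a * (n : ℝ) ^ 10 ≤ (numCopies H5 A : ℝ) :=
  ⟨fun _ H hk _ _ _ A hn h0 h1 hd hm => Vale.Agent.N037.few_lines hk H A hn h0 h1 hd hm,
    fun _ ha => Vale.Agent.N037.tight ha⟩
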