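import Vale.Agent.N037T.Defs
import Vale.Agent.N037T.Main

open Vale.Agent.N037T

/-- A polynomial removal bound holds for every pattern of size two, it passes to blow-ups, and it
holds for all patterns with four constant blocks. -/
theorem Vale.Agent.Results.P037.A0TwoByTwo.result :
    -- (1) every pattern of size two
    (∀ H : Matrix (Fin 2) (Fin 2) Bool, PolyRemoval H) ∧
    -- (2) repeating rows and columns in place keeps a polynomial bound
    (∀ (s t k l : ℕ) (H : Matrix (Fin s) (Fin t) Bool) (u : Fin k → Fin s) (v : Fin l → Fin t),
      Monotone u → Function.Surjective u → Monotone v → Function.Surjective v →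
        PolyRemoval H → PolyRemoval (H.submatrix u v)) ∧
    -- (3) patterns of every size which are constant on four blocks
    ∀ (k : ℕ) (H : Matrix (Fin k) (Fin k) Bool) (a b : ℕ),
      (∀ i i' j j', (i.val < a ↔ i'.val < a) → (j.val < b ↔ j'.val < b) → H i j = H i' j') →
        PolyRemoval H :=
  ⟨poly_all_two, fun _ _ _ _ _ u v h1 h2 h3 h4 h => h.blow u v h1 h2 h3 h4,
    fun _ H a b h => poly_block H a b h⟩
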